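import Vale.Agent.P200.Conic

/-!
P200: over an algebraically closed field every seven dimensional space of quinary quadrics
contains a nonzero product of two linear forms: eight hyperplanes cut the cone over the Segre
variety of `P⁴ × P⁴`, whose dimension is nine, in more than the origin (Krull).
-/

noncomputable section

namespace Vale.Agent.P200.Quint

open MvPolynomial Module

variable {K : Type*} [Field K]

/-- The rank one matrices supported on the first `a` rows and `b` columns. -/
def segre (K : Type*) [Field K] (a b : ℕ) :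
    MvPolynomial (Fin 5 × Fin 5) K →ₐ[K] MvPolynomial (Fin 5 ⊕ Fin 5) K :=
  aeval fun p => if (p.1 : ℕ) < a ∧ (p.2 : ℕ) < b then X (Sum.inl p.1) * X (Sum.inr p.2) else 0

lemma segre_X_ne_zero {a b : ℕ} (p : Fin 5 × Fin 5) (h : (p.1 : ℕ) < a ∧ (p.2 : ℕ) < b) :
    segre K a b (X p) ≠ 0 := by
  simp [segre, h, X_ne_zero]

lemma segre_X_eq_zero {a b : ℕ} (p : Fin 5 × Fin 5) (h : ¬((p.1 : ℕ) < a ∧ (p.2 : ℕ) < b)) :
    segre K a b (X p) = 0 := by
  simp only [segre, aeval_X, if_neg h]

lemma ker_segre_anti {a b a' b' : ℕ} (ha : a ≤ a') (hb : b ≤ b') :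
    RingHom.ker (segre K a' b') ≤ RingHom.ker (segre K a b) := by
  have h : (aeval (Sum.elim (fun i : Fin 5 => if (i : ℕ) < a then X (Sum.inl i) else 0)
      (fun j : Fin 5 => if (j : ℕ) < b then X (Sum.inr j) else 0))).comp (segre K a' b')
      = segre K a b := by
    refine algHom_ext fun p => ?_
    by_cases h1 : (p.1 : ℕ) < a <;> by_cases h2 : (p.2 : ℕ) < b <;>
      by_cases h3 : (p.1 : ℕ) < a' ∧ (p.2 : ℕ) < b' <;>
      simp only [segre, AlgHom.comp_apply, aeval_X, h1, h2, h3, and_self, and_false, false_and,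
        if_true, if_false, map_mul, map_zero, Sum.elim_inl, Sum.elim_inr, mul_zero, zero_mul]
    exact absurd (And.intro (lt_of_lt_of_le h1 ha) (lt_of_lt_of_le h2 hb)) h3
  intro p hp
  rw [RingHom.mem_ker] at hp ⊢
  rw [← h, AlgHom.comp_apply, hp, map_zero]

lemma segre_zero (p : MvPolynomial (Fin 5 × Fin 5) K) :
    segre K 0 0 p = C (aeval (fun _ => (0 : K)) p) := by
  have h : segre K 0 0 = (Algebra.ofId K _).comp (aeval fun _ => (0 : K)) :=
    algHom_ext fun p => by simp [segre]
  rw [h]; rfl

variable [IsAlgClosed K]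

lemma finrank_part_five : finrank K (part K 5 2) ≤ 15 := by
  classical
  set s : Finset (MvPolynomial (Fin 5) K) :=
    (Finset.univ.filter fun p : Fin 5 × Fin 5 => p.1 ≤ p.2).image fun p => X p.1 * X p.2
  have hle : part K 5 2 ≤ Submodule.span K (s : Set (MvPolynomial (Fin 5) K)) := by
    intro q hq
    obtain ⟨M, rfl⟩ := quad_expand hq
    refine Submodule.sum_mem _ fun p _ => Submodule.smul_mem _ _ (Submodule.subset_span ?_)
    rw [Finset.mem_coe, Finset.mem_image]
    rcases le_total p.1 p.2 with h | h
    · exact ⟨p, by simp [h], rfl⟩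
    · exact ⟨(p.2, p.1), by simp [h], mul_comm _ _⟩
  exact ((Submodule.finrank_mono hle).trans (finrank_span_finset_le_card s)).trans
    (Finset.card_image_le.trans (by decide))

/-- A space of quinary quadrics of dimension at least seven has a nonzero split member. -/
theorem exists_split_mem_five (W : Submodule K (MvPolynomial (Fin 5) K))
    (hWd : W ≤ part K 5 2) (hW : 7 ≤ finrank K W) :
    ∃ p ∈ W, p ≠ 0 ∧ Split p := by
  classical
  set V := W.comap (part K 5 2).subtype
  have hV : finrank K V = finrank K W := (Submodule.comapSubtypeEquivOfLe hWd).finrank_eq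
  have hQ : finrank K (part K 5 2 ⧸ V) ≤ 8 := by
    have := Submodule.finrank_quotient_add_finrank V
    have := finrank_part_five (K := K)
    omega
  set B := Module.finBasis K (part K 5 2 ⧸ V)
  have hXX : ∀ p : Fin 5 × Fin 5, (X p.1 * X p.2 : MvPolynomial (Fin 5) K) ∈ part K 5 2 :=
    fun p => (isHomogeneous_X K p.1).mul (isHomogeneous_X K p.2)
  set L : Fin (finrank K (part K 5 2 ⧸ V)) → MvPolynomial (Fin 5 × Fin 5) K :=
    fun k => ∑ p, C (B.repr (Submodule.Quotient.mk ⟨_, hXX p⟩) k) * X p
  set P := RingHom.ker (segre K 5 5)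
  -- a common zero other than the origin
  obtain ⟨m, hm, hm0⟩ : ∃ m ∈ zeroLocus K (P ⊔ Ideal.span (Set.range L)), m ≠ 0 := by
    by_contra hc
    push Not at hc
    let mk := Ideal.Quotient.mk P
    have hsurj : Function.Surjective mk := Ideal.Quotient.mk_surjective
    let img : ℕ → ℕ → Ideal (_ ⧸ P) := fun a b => Ideal.map mk (RingHom.ker (segre K a b))
    have hprime : ∀ a b, a ≤ 5 → b ≤ 5 → (img a b).IsPrime := fun a b ha hb => by
      have := RingHom.ker_isPrime (segre K a b)
      exact Ideal.map_isPrime_of_surjective hsurj (by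
        rw [Ideal.mk_ker]; exact ker_segre_anti ha hb)
    have step : ∀ (a b a' b' : ℕ) (k : ℕ) (p : Fin 5 × Fin 5), a ≤ a' → b ≤ b' → a' ≤ 5 → b' ≤ 5 →
        ((p.1 : ℕ) < a' ∧ (p.2 : ℕ) < b') → ¬((p.1 : ℕ) < a ∧ (p.2 : ℕ) < b) →
        (k : ℕ∞) ≤ (img a' b').height → ((k + 1 : ℕ) : ℕ∞) ≤ (img a b).height := by
      intro a b a' b' k p ha hb ha' hb' h1 h2 hk
      have := hprime a b (ha.trans ha') (hb.trans hb')
      have := hprime a' b' ha' hb'
      have hlt : img a' b' < img a b := by
        refine lt_of_le_of_ne (Ideal.map_mono (ker_segre_anti ha hb)) fun he => ?_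
        have hmem : mk (X p) ∈ img a' b' := he ▸ Ideal.mem_map_of_mem mk
          (show (X p : MvPolynomial (Fin 5 × Fin 5) K) ∈ RingHom.ker (segre K a b) from
            segre_X_eq_zero p h2)
        obtain ⟨r, hr, hre⟩ := (Ideal.mem_map_iff_of_surjective mk hsurj).1 hmem
        have hd' := ker_segre_anti (K := K) ha' hb' ((Ideal.Quotient.eq (I := P)).1 hre)
        rw [RingHom.mem_ker, map_sub, show segre K a' b' r = 0 from hr, zero_sub, neg_eq_zero] at hd'
        exact segre_X_ne_zero p h1 hd'
      push_cast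
      exact (add_le_add hk le_rfl).trans (Ideal.height_add_one_le_of_lt_of_isPrime hlt)
    have h7 : ((9 : ℕ) : ℕ∞) ≤ (img 0 0).height :=
      step 0 0 1 1 8 (0, 0) (by omega) (by omega) (by omega) (by omega) (by decide) (by decide) <|
      step 1 1 2 1 7 (1, 0) (by omega) (by omega) (by omega) (by omega) (by decide) (by decide) <|
      step 2 1 3 1 6 (2, 0) (by omega) (by omega) (by omega) (by omega) (by decide) (by decide) <|
      step 3 1 4 1 5 (3, 0) (by omega) (by omega) (by omega) (by omega) (by decide) (by decide) <|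
      step 4 1 5 1 4 (4, 0) (by omega) (by omega) (by omega) (by omega) (by decide) (by decide) <|
      step 5 1 5 2 3 (4, 1) (by omega) (by omega) (by omega) (by omega) (by decide) (by decide) <|
      step 5 2 5 3 2 (4, 2) (by omega) (by omega) (by omega) (by omega) (by decide) (by decide) <|
      step 5 3 5 4 1 (4, 3) (by omega) (by omega) (by omega) (by omega) (by decide) (by decide) <|
      step 5 4 5 5 0 (4, 4) (by omega) (by omega) (by omega) (by omega) (by decide) (by decide) bot_le
    have hmin : img 0 0 ∈ (Ideal.span (Set.range fun k => mk (L k))).minimalPrimes := by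
      refine ⟨⟨hprime 0 0 (by omega) (by omega), Ideal.span_le.2 ?_⟩, ?_⟩
      · rintro _ ⟨k, rfl⟩
        refine Ideal.mem_map_of_mem mk ?_
        simp [RingHom.mem_ker, segre_zero, L]
      · rintro R ⟨hR, hle⟩ -
        refine Ideal.map_le_iff_le_comap.2 fun p hp => ?_
        have hsub : P ⊔ Ideal.span (Set.range L) ≤ R.comap mk := by
          refine sup_le (fun r hr => ?_) (Ideal.span_le.2 ?_)
          · rw [Ideal.mem_comap, Ideal.Quotient.eq_zero_iff_mem.2 hr]; exact R.zero_mem
          · rintro _ ⟨k, rfl⟩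
            exact hle (Ideal.subset_span ⟨k, rfl⟩)
        have := hR.comap mk
        refine (this.radical_le_iff.2 hsub) ?_
        rw [← vanishingIdeal_zeroLocus_eq_radical (K := K), mem_vanishingIdeal_iff]
        intro x hx
        rw [hc x hx]
        rw [RingHom.mem_ker, segre_zero, C_eq_zero] at hp
        exact hp
    have h6 := h7.trans (Ideal.height_le_card_of_mem_minimalPrimes_span (Set.finite_range _) hmin)
    have : (Set.range fun k => mk (L k)).ncard ≤ 8 := by
      rw [← Nat.card_coe_set_eq]
      exact (Finite.card_range_le _).trans (by simpa using hQ)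
    have := Nat.cast_le.1 h6
    omega
  -- the zero is a rank one matrix
  rw [mem_zeroLocus_iff] at hm
  obtain ⟨kl, hkl⟩ := Function.ne_iff.1 hm0
  obtain ⟨k, l⟩ := kl
  replace hkl : m (k, l) ≠ 0 := hkl
  set w : Fin 5 → K := fun j => m (k, j) / m (k, l)
  have hfac : ∀ p : Fin 5 × Fin 5, m p = m (p.1, l) * w p.2 := by
    rintro ⟨i, j⟩
    have := hm (X (i, j) * X (k, l) - X (i, l) * X (k, j)) (Ideal.mem_sup_left (by
      simp [P, RingHom.mem_ker, segre]; ring))
    simp only [map_sub, map_mul, aeval_X, sub_eq_zero] at this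
    simp only [w]
    rw [← mul_div_assoc, eq_div_iff hkl]
    exact this
  set a : MvPolynomial (Fin 5) K := ∑ i, m (i, l) • X i
  set b : MvPolynomial (Fin 5) K := ∑ j, w j • X j
  have hab : a * b = ∑ p : Fin 5 × Fin 5, m p • (X p.1 * X p.2) := by
    simp only [a, b, Finset.sum_mul_sum, smul_mul_smul_comm, Fintype.sum_prod_type]
    simp only [← hfac (_, _)]
  refine ⟨a * b, ?_, ?_, a, b, isHomogeneous_lin _, isHomogeneous_lin _, rfl⟩
  · set e : part K 5 2 := ∑ p, m p • (⟨_, hXX p⟩ : part K 5 2)
    have he : (e : MvPolynomial (Fin 5) K) = a * b := by simp [e, hab]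
    have hz : (Submodule.Quotient.mk e : part K 5 2 ⧸ V) = 0 := by
      refine B.ext_elem fun c => ?_
      have := hm (L c) (Ideal.mem_sup_right (Ideal.subset_span ⟨c, rfl⟩))
      simp only [L, map_sum, map_mul, aeval_X, aeval_C, Algebra.algebraMap_self, RingHom.id_apply]
        at this
      rw [map_zero, Finsupp.zero_apply, ← Submodule.mkQ_apply]
      simp only [e, map_sum, map_smul, Submodule.mkQ_apply, Finsupp.finsetSum_apply,
        Finsupp.smul_apply, smul_eq_mul]
      rw [← this]
      exact Finset.sum_congr rfl fun p _ => mul_comm _ _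
    have := (Submodule.Quotient.mk_eq_zero V).1 hz
    rw [Submodule.mem_comap, Submodule.coe_subtype, he] at this
    exact this
  · refine mul_ne_zero (fun h => hkl ?_) (fun h => ?_)
    · simpa [a, coeff_sum, coeff_X, Finsupp.single_eq_single_iff] using
        congrArg (coeff (Finsupp.single k 1)) h
    · have : w l = 0 := by
        simpa [b, coeff_sum, coeff_X, Finsupp.single_eq_single_iff] using
          congrArg (coeff (Finsupp.single l 1)) h
      simp [w, div_self hkl] at this

end Vale.Agent.P200.Quint
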