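import Vale.Agent.P200.Growth.Linkage
import Vale.Agent.P200.Quint.SplitFive

/-!
P200: EGH for five quadrics in five variables: growth bounds from the pairing of a complete
intersection into its socle and from the cases of at most four variables.
-/

noncomputable section

namespace Vale.Agent.P200.Quint

open MvPolynomial Module Finset Deg Growth

variable {K : Type*} [Field K] {n : ℕ}

lemma finrank_part_choose : ∀ n d : ℕ, finrank K (part K (n + 1) d) = (d + n).choose n := by
  intro n
  induction n with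
  | zero =>
    intro d
    induction d with
    | zero => simpa using finrank_part_zero_eq (K := K) (n := 1)
    | succ d ih => rw [finrank_part_succ, ih, piece_zero_vars]; simp
  | succ n ihn =>
    intro d
    induction d with
    | zero => simpa using finrank_part_zero_eq (K := K) (n := n + 1 + 1)
    | succ d ih =>
      rw [finrank_part_succ, ih, ihn, show d + 1 + (n + 1) = (d + 1 + n) + 1 by ring,
        Nat.choose_succ_succ, show d + (n + 1) = d + 1 + n by ring]
      exact Nat.add_comm _ _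

/-- The Hilbert function of prefixes of a regular sequence of five quadrics. -/
def ci : ℕ → ℕ → ℕ
  | 0, d => (d + 4).choose 4
  | k + 1, d => if 2 ≤ d then ci k d - ci k (d - 2) else ci k d

lemma hilb_ci {q : Fin 5 → MvPolynomial (Fin 5) K} (hd : ∀ i, (q i).IsHomogeneous 2)
    (hq : Regular q) : ∀ k ≤ 5, ∀ d, hilb (pre q k) d = ci k d := by
  intro k hk
  induction k with
  | zero =>
    intro d
    have : piece (pre q 0) d = ⊥ := by
      rw [Submodule.eq_bot_iff]
      intro p hp
      simpa [pre] using (mem_piece.1 hp).1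
    rw [hilb, this, finrank_bot, Nat.sub_zero, finrank_part_choose]; rfl
  | succ k ih =>
    intro d
    obtain ⟨h1, h2⟩ := hilb_step (a := fun _ => 2) hd hq ⟨k, by omega⟩
    rw [ci]
    split_ifs with h
    · obtain ⟨e, rfl⟩ : ∃ e, d = e + 2 := ⟨d - 2, by omega⟩
      have := h1 e
      rw [ih (by omega), ih (by omega)] at this
      simp only [Nat.add_sub_cancel] at this ⊢
      omega
    · rw [← ih (by omega)]; exact h2 d (by omega)

/-- The exponent vector with binary digits `m`. -/
def vec (m : ℕ) : Fin 5 → ℕ := fun i => m / 2 ^ (4 - (i : ℕ)) % 2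

/-- The first `k` squarefree monomials of degree `d` in five variables. -/
def fam (d k : ℕ) : Finset (Fin 5 → ℕ) :=
  ((((List.range 32).filter fun m => decide ((∑ i, vec m i) = d)).take k).toFinset).image vec

/-- The caps of squarefree monomials. -/
abbrev one5 : Fin 5 → ℕ := fun _ => 1

lemma fam_ok : ∀ p ∈ [(1, 5, 1), (1, 4, 1), (1, 3, 1), (1, 2, 1), (1, 1, 1), (1, 0, 0),
    (2, 9, 5), (2, 10, 5), (3, 0, 0), (3, 1, 9), (3, 2, 9), (3, 3, 9), (3, 4, 9), (3, 5, 9),
    (3, 6, 9), (3, 7, 9), (3, 8, 10), (3, 9, 10), (3, 10, 10), (4, 0, 0), (4, 1, 4), (4, 2, 7),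
    (4, 3, 9), (4, 4, 10), (4, 5, 10), (5, 0, 0), (5, 1, 5)],
    fam p.1 p.2.1 ⊆ Box.sl one5 0 p.1 ∧ (fam p.1 p.2.1).card = p.2.1 ∧
      (Box.shadow (fam p.1 p.2.1)).card ≤ p.2.2 := by
  decide +kernel

lemma card_sl_small : ∀ m ≤ 4, ∀ e ≤ 3, (Box.sl (fun _ : Fin m => 1) 0 e).card = m.choose e := by
  decide +kernel

variable [IsAlgClosed K]

/-- At most four variables: any ideal with quadrics of finite colength obeys the bound. -/
lemma good_small {ι : Type*} (hn : n ≤ 4) {I : Ideal (MvPolynomial (Fin n) K)} (hI : Homog I)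
    {g : ι → MvPolynomial (Fin n) K} (hg : ∀ i, g i ∈ I) (hgd : ∀ i, (g i).IsHomogeneous 2)
    (hfc : FiniteColength g) : Box.Good (fun _ : Fin n => 1) (hilb I) := by
  obtain ⟨q, hq, hqd, hT⟩ := exists_tall hgd hfc hg
  exact Deg.good_hilb n I hI (fun _ => 2) (fun _ => by omega) monotone_const q hq hqd
    (tall_finiteColength hqd hT)
    (Or.inr (Or.inl ⟨(Finset.card_le_univ _).trans (by simpa using hn), fun _ _ => rfl⟩))

omit [IsAlgClosed K] in
/-- Restriction to a hyperplane keeps finite colength. -/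
lemma fc_res {ι : Type*} {g : ι → MvPolynomial (Fin (n + 1)) K} (hfc : FiniteColength g)
    {l : MvPolynomial (Fin (n + 1)) K} (H : Hyper l) : FiniteColength fun i => H.φ (g i) := by
  obtain ⟨N, hN⟩ := hfc
  refine ⟨N, fun p hp => ?_⟩
  have h1 := Ideal.mem_map_of_mem H.φ (hN _ (H.hsec hp))
  rwa [H.φ_sec, Ideal.map_span, ← Set.range_comp] at h1

omit [IsAlgClosed K] in
lemma exists_linear_mem {J : Ideal (MvPolynomial (Fin n) K)} (h : piece J 1 ≠ ⊥) :
    ∃ l ∈ J, l.IsHomogeneous 1 ∧ l ≠ 0 := by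
  obtain ⟨l, hl, hl0⟩ := Submodule.exists_mem_ne_zero_of_ne_bot h
  exact ⟨l, (mem_piece.1 hl).1, (mem_piece.1 hl).2, hl0⟩

/-- Linear forms in an ideal cut down the Hilbert function. -/
lemma lin_bound {ι : Type*} : ∀ (l n : ℕ) (J : Ideal (MvPolynomial (Fin n) K)), Homog J →
    l ≤ finrank K (piece J 1) → n - l ≤ 4 → ∀ g : ι → MvPolynomial (Fin n) K, (∀ i, g i ∈ J) →
    (∀ i, (g i).IsHomogeneous 2) → FiniteColength g → ∀ e, 1 ≤ e → e ≤ 3 →
    hilb J e ≤ (n - l).choose e := by
  intro l
  induction l with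
  | zero =>
    intro n J hJ _ hn g hg hgd hfc e he1 he3
    have hG := good_small (by omega) hJ hg hgd hfc
    obtain ⟨d, rfl⟩ : ∃ d, e = d + 1 := ⟨e - 1, by omega⟩
    obtain ⟨T, hT, hTc, -⟩ := hG.2 d
    rw [Nat.sub_zero, ← card_sl_small n (by omega) _ he3, ← hTc]
    exact card_le_card hT
  | succ l ih =>
    intro n J hJ hl hn g hg hgd hfc e he1 he3
    have hne : piece J 1 ≠ ⊥ := fun h => by rw [h, finrank_bot] at hl; omega
    obtain ⟨x, hxJ, hx, hx0⟩ := exists_linear_mem hne
    rcases n with _ | n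
    · have : part K 0 1 = ⊥ := piece_zero_vars 0
      exact absurd (eq_bot_mono (show piece J 1 ≤ part K 0 1 from inf_le_right) this) hne
    obtain ⟨H⟩ := exists_hyper hx hx0
    have htop : colon J x = ⊤ := eq_top_iff.2 fun p _ => mem_colon.2 (J.mul_mem_right _ hxJ)
    have hp : finrank K (piece J 1) = 1 + finrank K (piece (H.res J) 1) := by
      have hp := H.finrank_piece hJ hx hx0 0
      rwa [htop, piece_top, finrank_part_zero_eq] at hp
    obtain ⟨d, rfl⟩ : ∃ d, e = d + 1 := ⟨e - 1, by omega⟩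
    rw [H.hilb_succ hJ hx hx0 d, htop, hilb_top, zero_add, Nat.add_sub_add_right]
    exact ih n (H.res J) (H.homog_res hJ) (by omega) (by omega) (fun i => H.φ (g i))
      (fun i => H.mem_res.2 ⟨_, hg i, rfl⟩) (fun i => H.hφ (hgd i)) (fc_res hfc H) _ he1 he3

section CI

variable {q : Fin 5 → MvPolynomial (Fin 5) K}

lemma ci_vals (hd : ∀ i, (q i).IsHomogeneous 2) (hT : Tall q) :
    hilb (pre q 5) 2 = 10 ∧ hilb (pre q 5) 3 = 10 ∧ hilb (pre q 5) 4 = 5 ∧
      hilb (pre q 5) 5 = 1 ∧ ∀ d, 6 ≤ d → hilb (pre q 5) d = 0 := by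
  have h := hilb_ci hd (tall_regular 5 5 q le_rfl (fun _ => 2) (fun _ => one_le_two) hd hT) 5 le_rfl
  refine ⟨by rw [h]; decide, by rw [h]; decide, by rw [h]; decide, by rw [h]; decide, ?_⟩
  intro d hd6
  have hfull : part K 5 d ≤ (pre q 5).restrictScalars K := by
    induction d, hd6 using Nat.le_induction with
    | base =>
      have h6 : hilb (pre q 5) 6 = 0 := by rw [h]; decide
      have := hilb_add (pre q 5) 6
      have hle : piece (pre q 5) 6 ≤ part K 5 6 := inf_le_right
      have he : piece (pre q 5) 6 = part K 5 6 := Submodule.eq_of_le_of_finrank_le hle (by omega)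
      exact he.ge.trans inf_le_left
    | succ d _ ih => exact piece_succ_full ih
  rw [hilb, show piece (pre q 5) d = part K 5 d from inf_eq_right.2 hfull, Nat.sub_self]

end CI

/-- Gluing when the ideal contains a linear form. -/
lemma good_of_linear {ι : Type*} {I : Ideal (MvPolynomial (Fin 5) K)} (hI : Homog I)
    {g : ι → MvPolynomial (Fin 5) K} (hg : ∀ i, g i ∈ I) (hgd : ∀ i, (g i).IsHomogeneous 2)
    (hfc : FiniteColength g) (h1 : piece I 1 ≠ ⊥) : Box.Good one5 (hilb I) := by
  obtain ⟨x, hxI, hx, hx0⟩ := exists_linear_mem h1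
  obtain ⟨H⟩ := exists_hyper hx hx0
  have htop : colon I x = ⊤ := eq_top_iff.2 fun p _ => mem_colon.2 (I.mul_mem_right _ hxI)
  have hG := good_small le_rfl (H.homog_res hI) (fun i => H.mem_res.2 ⟨_, hg i, rfl⟩)
    (fun i => H.hφ (hgd i)) (fc_res hfc H)
  refine Box.good_glue monotone_const 0 (hilb_zero_le I) fun d => ?_
  obtain ⟨T, hT, hTc, hTs⟩ := hG.2 d
  have heq : ∀ e, hilb I e = hilb (H.res I) e := fun e => by
    cases e with
    | zero => exact (H.hilb_zero hI hx).symm
    | succ e => rw [H.hilb_succ hI hx hx0 e, htop, hilb_top, zero_add]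
  refine ⟨fun | 0 => hilb I (d + 1) | _ + 1 => 0, fun | 0 => hilb I d | _ + 1 => 0, ?_, ?_,
    by simp [Finset.sum_range_succ], by simp [Finset.sum_range_succ]⟩
  · rintro (_ | k) hk
    · exact ⟨T, hT, by rw [heq, hTc], by rw [heq]; exact hTs⟩
    · exact ⟨∅, empty_subset _, rfl, by simp [Box.shadow]⟩
  · intro k _; simp

/-- Gluing when the ideal contains a split quadric. -/
lemma good_of_split {ι : Type*} {I : Ideal (MvPolynomial (Fin 5) K)} (hI : Homog I)
    {g : ι → MvPolynomial (Fin 5) K} (hg : ∀ i, g i ∈ I) (hgd : ∀ i, (g i).IsHomogeneous 2)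
    (hfc : FiniteColength g) {p : MvPolynomial (Fin 5) K} (hp : p ∈ I) (hp0 : p ≠ 0)
    (hps : Split p) : Box.Good one5 (hilb I) := by
  obtain ⟨L, hL, hLe⟩ := splitN_two.2 hps
  have hL0 : ∀ k, L k ≠ 0 := fun k h => hp0 (by rw [hLe]; exact prod_eq_zero (mem_univ k) h)
  let H := fun k => (exists_hyper (hL k) (hL0 k)).some
  refine Box.good_glue monotone_const 0 (hilb_zero_le I) fun d => ?_
  obtain ⟨g', B, h1, h2, h3, h4, -⟩ := peel_layers (c := fun _ : Fin 4 => 1) 2 L H hL hL0 I hI
    (hLe ▸ hp) (fun k J hJ hle => good_small le_rfl ((H k).homog_res hJ)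
      (fun i => (H k).mem_res.2 ⟨_, hle (hg i), rfl⟩) (fun i => (H k).hφ (hgd i))
      (fc_res hfc (H k))) (d + 1)
  exact ⟨g', B, fun k hk => h3 k (Nat.lt_succ_of_le hk), fun k hk => h4 k (Nat.succ_lt_succ hk),
    h1, by simpa using h2⟩

/-- EGH for five quadrics in five variables, in numerical form. -/
theorem good_five {ι : Type*} {I : Ideal (MvPolynomial (Fin 5) K)} (hI : Homog I)
    {g : ι → MvPolynomial (Fin 5) K} (hg : ∀ i, g i ∈ I) (hgd : ∀ i, (g i).IsHomogeneous 2)
    (hfc : FiniteColength g) : Box.Good one5 (hilb I) := by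
  by_cases h1 : piece I 1 = ⊥
  swap
  · exact good_of_linear hI hg hgd hfc h1
  by_cases h7 : 7 ≤ finrank K (piece I 2)
  · obtain ⟨p, hp, hp0, hps⟩ := exists_split_mem_five (piece I 2) inf_le_right h7
    exact good_of_split hI hg hgd hfc (mem_piece.1 hp).1 hp0 hps
  obtain ⟨q, hq, hd, hT⟩ := exists_tall hgd hfc hg
  obtain ⟨c2, c3, c4, c5, c6⟩ := ci_vals hd hT
  set J := pre q 5 with hJdef
  have hJI : J ≤ I := by
    rw [hJdef, pre_all]
    exact Ideal.span_le.2 (by rintro _ ⟨i, rfl⟩; exact hq i)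
  have hJh : Homog J := homog_pre hd 5
  have hqJ : ∀ i, q i ∈ J := fun i => by rw [hJdef, pre_all]; exact Ideal.subset_span ⟨i, rfl⟩
  have hqfc := tall_finiteColength hd hT
  have a : ∀ e, hilb J e + finrank K (piece J e) = finrank K (part K 5 e) := hilb_add J
  have b : ∀ e, hilb I e + finrank K (piece I e) = finrank K (part K 5 e) := hilb_add I
  have le : ∀ e, hilb I e ≤ hilb J e := hilb_anti hJI
  have hv : ∀ e, finrank K (part K 5 e) = (e + 4).choose 4 := finrank_part_choose 4
  have v1 : finrank K (part K 5 1) = 5 := by rw [hv]; decide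
  have v2 : finrank K (part K 5 2) = 15 := by rw [hv]; decide
  have v3 : finrank K (part K 5 3) = 35 := by rw [hv]; decide
  have v4 : finrank K (part K 5 4) = 70 := by rw [hv]; decide
  have v5 : finrank K (part K 5 5) = 126 := by rw [hv]; decide
  have i1 : hilb I 1 = 5 := by rw [hilb, h1, finrank_bot, v1]
  have i0 : hilb I 0 = 1 := by
    have h0 : piece I 0 = ⊥ := by
      rw [Submodule.eq_bot_iff]
      intro p hp
      have hm : X 0 * p ∈ piece I 1 := mem_piece.2
        ⟨I.mul_mem_left _ (mem_piece.1 hp).1, (isHomogeneous_X K 0).mul (mem_piece.1 hp).2⟩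
      rw [h1, Submodule.mem_bot, mul_eq_zero] at hm
      exact hm.resolve_left (X_ne_zero 0)
    rw [hilb, h0, finrank_bot, Nat.sub_zero, finrank_part_zero_eq]
  have i2 : hilb I 2 = 9 ∨ hilb I 2 = 10 := by
    have := b 2; have := le 2; omega
  -- a sixth quadric
  have h23 : hilb I 2 = 9 → hilb I 3 ≤ 7 := by
    intro h9
    obtain ⟨f, hf, hfJ⟩ : ∃ f ∈ piece I 2, f ∉ J := by
      by_contra hc
      simp only [not_exists, not_and, not_not] at hc
      have := Submodule.finrank_mono (R := K) (s := piece I 2) (t := piece J 2)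
        fun p hp => mem_piece.2 ⟨hc p hp, (mem_piece.1 hp).2⟩
      have := a 2; have := b 2; omega
    obtain ⟨hfI, hfd⟩ := mem_piece.1 hf
    set C := colonSpace J (Submodule.span K {f})
    have hCm : ∀ p, p ∈ C ↔ p * f ∈ J := fun p => by
      refine ⟨fun h => h f (Submodule.mem_span_singleton_self f), fun h u hu => ?_⟩
      obtain ⟨c, rfl⟩ := Submodule.mem_span_singleton.1 hu
      rw [smul_eq_C_mul, mul_left_comm]
      exact J.mul_mem_left _ h
    have hCh : Homog C := homog_colonSpace hJh (f := 2) (Submodule.span_le.2 (by simpa using hfd))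
    have hl : finrank K (piece C 1) ≤ 2 := by
      by_contra hc
      have hb := lin_bound 3 5 C hCh (by omega) (by omega) q
        (fun i => (hCm _).2 (J.mul_mem_right _ (hqJ i))) hd hqfc 3 (by omega) le_rfl
      have hfull : piece C 3 = part K 5 3 := Submodule.eq_of_le_of_finrank_le inf_le_right (by
        have := hilb_add C 3
        rw [show Nat.choose (5 - 3) 3 = 0 from rfl] at hb
        omega)
      refine hfJ (nondeg (a := fun _ => 2) (fun _ => one_le_two) hd hT 3 2 rfl f hfd fun v hv' => ?_)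
      rw [mul_comm]
      exact (hCm v).1 (mem_piece.1 (hfull.symm ▸ hv' : v ∈ piece C 3)).1
    let Φ := ((piece J 3).mkQ.comp (LinearMap.mulLeft K f)).domRestrict (part K 5 1)
    have hk : finrank K (LinearMap.ker Φ) ≤ finrank K (piece C 1) := by
      rw [← Submodule.finrank_map_subtype_eq]
      refine Submodule.finrank_mono ?_
      rintro _ ⟨x, hx, rfl⟩
      have hx' : f * x.1 ∈ piece J 3 := (Submodule.Quotient.mk_eq_zero _).1 (LinearMap.mem_ker.1 hx)
      exact mem_piece.2 ⟨(hCm _).2 (by rw [mul_comm]; exact (mem_piece.1 hx').1), x.2⟩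
    have hr : finrank K (LinearMap.range Φ) + finrank K (piece J 3) ≤ finrank K (piece I 3) := by
      set M := (piece I 3).comap (piece I 3).subtype
      set N := (piece J 3).comap (piece I 3).subtype
      have hle : piece J 3 ≤ piece I 3 := inf_le_inf_right _ hJI
      have hsub : LinearMap.range Φ ≤ (piece I 3).map (piece J 3).mkQ := by
        rintro _ ⟨x, rfl⟩
        exact ⟨f * x.1, mem_piece.2 ⟨I.mul_mem_right _ hfI, hfd.mul x.2⟩, rfl⟩
      have h3 := LinearMap.finrank_range_add_finrank_ker ((piece J 3).mkQ.domRestrict (piece I 3))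
      rw [LinearMap.range_domRestrict, LinearMap.ker_domRestrict, Submodule.ker_mkQ,
        (Submodule.comapSubtypeEquivOfLe hle).finrank_eq] at h3
      have := Submodule.finrank_mono (R := K) hsub
      omega
    have h3 := LinearMap.finrank_range_add_finrank_ker Φ
    have := a 3; have := b 3; omega
  -- the step from three to four
  have h34 : 10 - hilb I 3 ≤ (5 - hilb I 4).choose 2 := by
    set C4 := colonSpace J (piece I 4)
    set C3 := colonSpace J (piece I 3)
    have hp : finrank K (part K 5 1) + finrank K (piece J 4)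
        ≤ finrank K (piece I 4) + finrank K (piece C4 1) :=
      pair c5 rfl (part K 5 1) (piece C4 1) (piece I 4) (piece J 4) le_rfl inf_le_right
        (inf_le_inf_right _ hJI) (fun u _ v hv' => J.mul_mem_left _ (mem_piece.1 hv').1)
        fun u hu h => mem_piece.2 ⟨h, hu⟩
    have hl : hilb I 4 ≤ finrank K (piece C4 1) := by
      have := a 4; have := b 4; omega
    have h41 : piece C4 1 ≤ piece C3 1 := by
      intro p hp'
      refine mem_piece.2 ⟨fun w hw => ?_, (mem_piece.1 hp').2⟩
      rw [hJdef, pre_all]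
      refine socle 5 q (fun _ => 2) (fun _ => one_le_two) hd hT (1 + 3) (by simp) _ ((mem_piece.1 hp').2.mul (mem_piece.1 hw).2)
        fun i => ?_
      rw [← pre_all, mul_left_comm]
      exact (mem_piece.1 hp').1 _ (mem_piece.2 ⟨I.mul_mem_left _ (mem_piece.1 hw).1,
        (isHomogeneous_X K i).mul (mem_piece.1 hw).2⟩)
    rcases Nat.eq_zero_or_pos (hilb I 4) with h0 | h0
    · rw [h0]; exact (Nat.sub_le _ _).trans (by decide)
    have hb := lin_bound (hilb I 4) 5 C3 (homog_colonSpace hJh inf_le_right)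
      (hl.trans (Submodule.finrank_mono h41)) (by omega) q
      (fun i w _ => J.mul_mem_right _ (hqJ i)) hd hqfc 2 (by omega) (by omega)
    have hp2 : finrank K (piece I 3) + finrank K (piece C3 2)
        ≤ finrank K (part K 5 2) + finrank K (piece J 3) :=
      pair c5 rfl (piece I 3) (piece J 3) (part K 5 2) (piece C3 2) inf_le_right le_rfl
        inf_le_right (fun u hu v hv' => by rw [mul_comm]; exact (mem_piece.1 hv').1 u hu)
        fun u hu h => mem_piece.2 ⟨nondeg (a := fun _ => 2) (fun _ => one_le_two) hd hT 2 3 rfl u (mem_piece.1 hu).2 h, (mem_piece.1 hu).2⟩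
    have := hilb_add C3 2
    have := a 3; have := b 3; omega
  -- the socle
  have h45 : 1 ≤ hilb I 5 → hilb I 4 = 5 := by
    intro h5
    have hle : piece J 5 ≤ piece I 5 := inf_le_inf_right _ hJI
    have he : piece J 5 = piece I 5 := Submodule.eq_of_le_of_finrank_le hle (by
      have := a 5; have := b 5; omega)
    have h4 : piece I 4 ≤ piece J 4 := fun u hu => mem_piece.2 ⟨nondeg (a := fun _ => 2) (fun _ => one_le_two) hd hT 1 4 rfl u
      (mem_piece.1 hu).2 fun v hv' => (mem_piece.1 (he ▸ mem_piece.2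
        ⟨I.mul_mem_right _ (mem_piece.1 hu).1, (mem_piece.1 hu).2.mul hv'⟩ :
          u * v ∈ piece J 5)).1, (mem_piece.1 hu).2⟩
    have := Submodule.finrank_mono h4
    have := a 4; have := b 4; have := le 4; omega
  have key : ∀ d k s, (d + 1, k, s) ∈ [(1, 5, 1), (1, 4, 1), (1, 3, 1), (1, 2, 1), (1, 1, 1),
      (1, 0, 0), (2, 9, 5), (2, 10, 5), (3, 0, 0), (3, 1, 9), (3, 2, 9), (3, 3, 9), (3, 4, 9),
      (3, 5, 9), (3, 6, 9), (3, 7, 9), (3, 8, 10), (3, 9, 10), (3, 10, 10), (4, 0, 0), (4, 1, 4),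
      (4, 2, 7), (4, 3, 9), (4, 4, 10), (4, 5, 10), (5, 0, 0), (5, 1, 5)] →
      hilb I (d + 1) = k → s ≤ hilb I d →
      ∃ T, T ⊆ Box.sl one5 0 (d + 1) ∧ T.card = hilb I (d + 1) ∧ (Box.shadow T).card ≤ hilb I d := by
    intro d k s hmem hk hs
    obtain ⟨h1, h2, h3⟩ := fam_ok _ hmem
    exact ⟨_, h1, h2.trans hk.symm, h3.trans hs⟩
  refine ⟨hilb_zero_le I, fun d => ?_⟩
  have := le 3; have := le 4; have := le 5
  rcases d with _ | _ | _ | _ | _ | d
  · exact key 0 5 1 (by decide) i1 (by omega)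
  · rcases i2 with h | h
    · exact key 1 9 5 (by decide) h (by omega)
    · exact key 1 10 5 (by decide) h (by omega)
  · have h3 : hilb I 3 ≤ 10 := by omega
    obtain ⟨k, hk⟩ : ∃ k, hilb I 3 = k := ⟨_, rfl⟩
    rcases i2 with h | h
    · have h7' := h23 h
      rw [hk] at h7'
      interval_cases k
      · exact key 2 0 0 (by decide) hk (by omega)
      all_goals exact key 2 _ 9 (by decide) hk (by omega)
    · rw [hk] at h3
      interval_cases k
      · exact key 2 0 0 (by decide) hk (by omega)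
      iterate 7 exact key 2 _ 9 (by decide) hk (by omega)
      all_goals exact key 2 _ 10 (by decide) hk (by omega)
  · have h4 : hilb I 4 ≤ 5 := by omega
    obtain ⟨k, hk⟩ : ∃ k, hilb I 4 = k := ⟨_, rfl⟩
    rw [hk] at h34 h4
    interval_cases k <;> norm_num [Nat.choose] at h34
    · exact key 3 0 0 (by decide) hk (by omega)
    · exact key 3 1 4 (by decide) hk (by omega)
    · exact key 3 2 7 (by decide) hk (by omega)
    · exact key 3 3 9 (by decide) hk (by omega)
    · exact key 3 4 10 (by decide) hk (by omega)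
    · exact key 3 5 10 (by decide) hk (by omega)
  · rcases (show hilb I 5 = 0 ∨ hilb I 5 = 1 by omega) with h | h
    · exact key 4 0 0 (by decide) h (by omega)
    · exact key 4 1 5 (by decide) h (by have := h45 (by omega); omega)
  · refine ⟨∅, empty_subset _, ?_, by simp [Box.shadow]⟩
    have := le (d + 6)
    rw [c6 (d + 6) (by omega)] at this
    exact Finset.card_empty.trans (Nat.le_zero.1 this).symm

end Vale.Agent.P200.Quint
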