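import Vale.Agent.P200.Quint.Five

/-!
P200: EGH for `n` forms of finite colength in `n` variables which split into linear factors,
except at most five quadrics, except at most two forms, or except three including a quadric.
-/

noncomputable section

namespace Vale.Agent.P200.Quint

open MvPolynomial Module Finset Deg

variable {K : Type*} [Field K] [IsAlgClosed K]

/-- At most two forms, or three including a quadric, or at most five quadrics, fail to split. -/
def FewBad5 {n : ℕ} (a : Fin n → ℕ) (q : Fin n → MvPolynomial (Fin n) K) : Prop :=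
  (bad a q).card ≤ 2 ∨ ((bad a q).card ≤ 5 ∧ ∀ i ∈ bad a q, a i = 2) ∨
    ((bad a q).card ≤ 3 ∧ ∃ i ∈ bad a q, a i = 2)

open Classical in
/-- EGH in numerical form when at most five quadrics fail to split. -/
theorem good_quadrics : ∀ (n : ℕ) (I : Ideal (MvPolynomial (Fin n) K)), Homog I →
    ∀ a : Fin n → ℕ, (∀ i, 1 ≤ a i) → Monotone a →
    ∀ q : Fin n → MvPolynomial (Fin n) K, (∀ i, q i ∈ I) → (∀ i, (q i).IsHomogeneous (a i)) →
      FiniteColength q → (bad a q).card ≤ 5 → (∀ i ∈ bad a q, a i = 2) →
      Box.Good (fun i => a i - 1) (hilb I) := by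
  intro n
  induction n with
  | zero =>
    intro I hI a ha hm q hq hd hfc _ _
    exact Deg.good_hilb 0 I hI a ha hm q hq hd hfc (Or.inl ((Finset.card_le_univ _).trans (by simp)))
  | succ n ih =>
    intro I hI a ha1 hmono q hq hd hfc h5 h2
    rcases Nat.lt_or_ge (bad a q).card 5 with h4 | h4
    · exact Deg.good_hilb _ I hI a ha1 hmono q hq hd hfc (Or.inr (Or.inl ⟨by omega, h2⟩))
    by_cases hs : ∃ j, SplitN (a j) (q j)
    swap
    · simp only [not_exists] at hs
      have hall : bad a q = univ := Finset.filter_true_of_mem fun i _ => hs i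
      rw [hall, card_univ, Fintype.card_fin] at h4 h5
      obtain rfl : n = 4 := by omega
      obtain rfl : a = fun _ => 2 := funext fun i => h2 i (hall ▸ mem_univ i)
      exact good_five hI hq hd hfc
    obtain ⟨j, L, hL, hqj⟩ := hs
    have hj0 : q j ≠ 0 := by
      intro h0
      have hfc' : FiniteColength (q ∘ j.succAbove) := by
        obtain ⟨N, hN⟩ := hfc
        refine ⟨N, fun p hp => (Ideal.span_le.2 ?_) (hN p hp)⟩
        rintro _ ⟨i, rfl⟩
        refine Fin.succAboveCases j ?_ (fun k => ?_) i
        · rw [h0]; exact Submodule.zero_mem _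
        · exact Ideal.subset_span ⟨k, rfl⟩
      have := card_ge hfc' (fun i => ha1 (j.succAbove i)) fun i => hd _
      simp at this
    have hL0 : ∀ k, L k ≠ 0 := fun k h => hj0 (by rw [hqj]; exact prod_eq_zero (mem_univ k) h)
    -- restriction to a hyperplane containing the split form
    have hres : ∀ (k : Fin (a j)) (H : Hyper (L k)) (J : Ideal (MvPolynomial (Fin (n + 1)) K)),
        Homog J → I ≤ J → Box.Good (fun i => a (j.succAbove i) - 1) (hilb (H.res J)) := by
      intro k H J hJ hle
      have hc : H.φ (q j) = 0 := by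
        rw [hqj, map_prod]; exact prod_eq_zero (mem_univ k) H.φ_a
      refine ih (H.res J) (H.homog_res hJ) _ (fun i => ha1 _)
        (hmono.comp (Fin.strictMono_succAbove j).monotone) (fun i => H.φ (q (j.succAbove i)))
        (fun i => H.mem_res.2 ⟨_, hle (hq _), rfl⟩) (fun i => H.hφ (hd _)) ?_ ?_ ?_
      · obtain ⟨N, hN⟩ := hfc
        refine ⟨N, fun p hp => ?_⟩
        have h1 := Ideal.mem_map_of_mem H.φ (hN _ (H.hsec hp))
        rw [H.φ_sec, Ideal.map_span] at h1
        refine (Ideal.span_le.2 ?_) h1
        rintro _ ⟨_, ⟨i, rfl⟩, rfl⟩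
        refine Fin.succAboveCases j ?_ (fun k => ?_) i
        · rw [hc]; exact Submodule.zero_mem _
        · exact Ideal.subset_span ⟨k, rfl⟩
      · have hmap : ∀ i, i ∈ bad (fun i => a (j.succAbove i)) (fun i => H.φ (q (j.succAbove i))) →
            j.succAbove i ∈ bad a q := by
          intro i hi
          simp only [bad, mem_filter, mem_univ, true_and] at hi ⊢
          rintro ⟨M, hM, e⟩
          exact hi ⟨fun k => H.φ (M k), fun k => H.hφ (hM k), by rw [e, map_prod]⟩
        exact (Finset.card_le_card_of_injOn j.succAbove hmap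
          Fin.succAbove_right_injective.injOn).trans h5
      · intro i hi
        refine h2 _ ?_
        simp only [bad, mem_filter, mem_univ, true_and] at hi ⊢
        rintro ⟨M, hM, e⟩
        exact hi ⟨fun k => H.φ (M k), fun k => H.hφ (hM k), by rw [e, map_prod]⟩
    have hex : ∀ k, Nonempty (Hyper (L k)) := fun k => exists_hyper (hL k) (hL0 k)
    let H := fun k => (hex k).some
    refine Box.good_glue (fun x y hxy => Nat.sub_le_sub_right (hmono hxy) 1) j (hilb_zero_le I)
      fun d => ?_
    have haj : a j - 1 + 1 = a j := Nat.sub_add_cancel (ha1 j)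
    obtain ⟨g, B, h1, h2, h3, h4, -⟩ := peel_layers (c := fun i => a (j.succAbove i) - 1) (a j)
      L H hL hL0 I hI (hqj ▸ hq j) (fun k J hJ hle => hres k (H k) J hJ hle) (d + 1)
    exact ⟨g, B, fun k hk => h3 k (by omega), fun k hk => h4 k (by omega), by rw [haj]; exact h1,
      by rw [haj]; simpa using h2⟩

/-- EGH in numerical form. -/
theorem good_hilb5 {n : ℕ} {I : Ideal (MvPolynomial (Fin n) K)} (hI : Homog I) {a : Fin n → ℕ}
    (ha : ∀ i, 1 ≤ a i) (hm : Monotone a) {q : Fin n → MvPolynomial (Fin n) K}
    (hq : ∀ i, q i ∈ I) (hd : ∀ i, (q i).IsHomogeneous (a i)) (hfc : FiniteColength q)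
    (hb : FewBad5 a q) : Box.Good (fun i => a i - 1) (hilb I) := by
  rcases hb with h | ⟨h, h2⟩ | h
  · exact Deg.good_hilb n I hI a ha hm q hq hd hfc (Or.inl h)
  · exact good_quadrics n I hI a ha hm q hq hd hfc h h2
  · exact Deg.good_hilb n I hI a ha hm q hq hd hfc (Or.inr (Or.inr h))

end Vale.Agent.P200.Quint
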