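import Vale.Agent.P200.Deg.LPP

/-!
P200: forms whose prefixes have the expected height form a regular sequence, and the socle of a
complete intersection of `n` forms in `n` variables lives in one degree only.
-/

noncomputable section

namespace Vale.Agent.P200.Quint

open MvPolynomial Module Finset Deg

variable {K : Type*} [Field K] {n k : ℕ}

/-- The ideal of the forms before position `i`. -/
def pre (q : Fin k → MvPolynomial (Fin n) K) (i : ℕ) : Ideal (MvPolynomial (Fin n) K) :=
  Ideal.span (q '' {j | (j : ℕ) < i})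

/-- The prefixes have at least the expected height. -/
def Tall (q : Fin k → MvPolynomial (Fin n) K) : Prop :=
  ∀ i ≤ k, ∀ P : Ideal (MvPolynomial (Fin n) K), P.IsPrime → pre q i ≤ P → (i : ℕ∞) ≤ P.height

lemma pre_succ (q : Fin k → MvPolynomial (Fin n) K) (i : Fin k) :
    pre q ((i : ℕ) + 1) = pre q i ⊔ Ideal.span {q i} := by
  rw [pre, pre, ← Ideal.span_union]
  congr 1
  ext p
  constructor
  · rintro ⟨j, hj, rfl⟩
    rcases Nat.lt_succ_iff_lt_or_eq.1 (show (j : ℕ) < (i : ℕ) + 1 from hj) with h | h
    · exact Or.inl ⟨j, h, rfl⟩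
    · exact Or.inr (by rw [Fin.ext h]; rfl)
  · rintro (⟨j, hj, rfl⟩ | rfl)
    · exact ⟨j, Nat.lt_succ_of_lt hj, rfl⟩
    · exact ⟨i, Nat.lt_succ_self _, rfl⟩

lemma pre_all (q : Fin k → MvPolynomial (Fin n) K) : pre q k = Ideal.span (Set.range q) := by
  rw [pre, show {j : Fin k | (j : ℕ) < k} = Set.univ from Set.eq_univ_of_forall fun j => j.2,
    Set.image_univ]

lemma homog_pre {q : Fin k → MvPolynomial (Fin n) K} {a : Fin k → ℕ}
    (hd : ∀ i, (q i).IsHomogeneous (a i)) (i : ℕ) : Homog (pre q i) := by
  intro p hp d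
  rw [pre, Set.image_eq_range] at hp ⊢
  obtain ⟨f, rfl⟩ := Finsupp.mem_span_range_iff_exists_finsupp.1 hp
  rw [Finsupp.sum, map_sum]
  refine Ideal.sum_mem _ fun j _ => ?_
  rw [smul_eq_mul, component_mul_homog (hd j.1)]
  split_ifs
  · exact Ideal.mul_mem_left _ _ (Ideal.subset_span ⟨j, rfl⟩)
  · exact Ideal.zero_mem _

lemma map_pre {m : ℕ} (φ : MvPolynomial (Fin n) K →ₐ[K] MvPolynomial (Fin m) K)
    (q : Fin k → MvPolynomial (Fin n) K) (i : ℕ) :
    (pre q i).map φ = pre (fun j => φ (q j)) i := by
  rw [pre, pre, Ideal.map_span, Set.image_image]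

/-- Fewer forms than variables leave a variable outside each minimal prime. -/
lemma exists_avoid {m : ℕ} (J : Fin m → Ideal (MvPolynomial (Fin n) K)) [Infinite K]
    (W : Submodule K (MvPolynomial (Fin n) K))
    (hJ : ∀ i, ∀ Q ∈ (J i).minimalPrimes, ∃ x ∈ W, x ∉ Q) :
    ∃ x ∈ W, ∀ i, ∀ Q ∈ (J i).minimalPrimes, x ∉ Q := by
  have : ∀ i, Finite (J i).minimalPrimes :=
    fun i => (Ideal.finite_minimalPrimes_of_isNoetherianRing _ (J i)).to_subtype
  obtain ⟨x, hx⟩ := Submodule.exists_forall_notMem_of_forall_ne_top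
    (fun p : (i : Fin m) × (J i).minimalPrimes => (p.2.1.restrictScalars K).comap W.subtype)
    fun ⟨i, Q, hQ⟩ h => by
      obtain ⟨x, hxW, hxQ⟩ := hJ i Q hQ
      exact hxQ (Submodule.eq_top_iff'.1 h ⟨x, hxW⟩ :)
  exact ⟨x.1, x.2, fun i Q hQ => hx ⟨i, Q, hQ⟩⟩

variable [IsAlgClosed K]

/-- All variables in a prime make its height at least `n`. -/
lemma le_height_of_X {P : Ideal (MvPolynomial (Fin n) K)} (hX : ∀ i, X i ∈ P) :
    (n : ℕ∞) ≤ P.height := by
  refine (le_primeHeight_killFirst (K := K) n n le_rfl).trans (Ideal.height_mono fun p hp => ?_)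
  have hcong : (Ideal.Quotient.mkₐ K P).comp (killFirst K n n) = Ideal.Quotient.mkₐ K P :=
    algHom_ext fun i => by simp [killFirst, Ideal.Quotient.eq_zero_iff_mem.2 (hX i)]
  have : Ideal.Quotient.mkₐ K P p = 0 := by
    rw [← hcong, AlgHom.comp_apply, show killFirst K n n p = 0 from hp, map_zero]
  exact Ideal.Quotient.eq_zero_iff_mem.1 this

/-- A linear form avoiding the minimal primes of all the short prefixes. -/
lemma exists_linear {q : Fin k → MvPolynomial (Fin (n + 1)) K} (hkn : k ≤ n) :
    ∃ l : MvPolynomial (Fin (n + 1)) K, l.IsHomogeneous 1 ∧ l ≠ 0 ∧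
      ∀ i ≤ k, ∀ Q ∈ (pre q i).minimalPrimes, l ∉ Q := by
  obtain ⟨l, hl, hlQ⟩ := exists_avoid (fun i : Fin (k + 1) => pre q i) (part K (n + 1) 1)
    fun i Q hQ => by
      by_contra h
      simp only [not_exists, not_and, not_not] at h
      have h1 := (le_height_of_X fun j => h _ (isHomogeneous_X K j)).trans
        (Ideal.height_le_card_of_mem_minimalPrimes_span (Set.toFinite _) hQ)
      have h2 : (q '' {j | (j : ℕ) < (i : ℕ)}).ncard ≤ k := by
        refine (Set.ncard_image_le (Set.toFinite _)).trans ((Set.ncard_le_ncard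
          (Set.subset_univ _) (Set.toFinite _)).trans ?_)
        rw [Set.ncard_univ, Nat.card_eq_fintype_card, Fintype.card_fin]
      have := Nat.cast_le.1 h1
      omega
  refine ⟨l, hl, fun h0 => ?_, fun i hi => hlQ ⟨i, by omega⟩⟩
  have hne : pre q 0 ≠ ⊤ := by simp [pre]
  obtain ⟨Q, hQ⟩ := Set.nonempty_iff_ne_empty.2
    (fun h => hne ((Ideal.minimalPrimes_eq_empty_iff _).1 h))
  exact hlQ 0 Q hQ (h0 ▸ Q.zero_mem)

/-- Restricting to such a hyperplane keeps the heights. -/
lemma tall_res {q : Fin k → MvPolynomial (Fin (n + 1)) K} (hq : Tall q)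
    {l : MvPolynomial (Fin (n + 1)) K} (hl : ∀ i ≤ k, ∀ Q ∈ (pre q i).minimalPrimes, l ∉ Q)
    (H : Hyper l) : Tall fun i => H.φ (q i) := by
  intro i hi P hP hle
  set P' := P.comap H.φ.toRingHom with hP'
  have hP'p : P'.IsPrime := hP.comap _
  have hker : RingHom.ker H.φ.toRingHom = Ideal.span {l} := by
    ext p
    rw [RingHom.mem_ker, Ideal.mem_span_singleton']
    exact ⟨fun h => by obtain ⟨r, hr⟩ := H.ker p h; exact ⟨r, by rw [hr, mul_comm]⟩,
      fun ⟨r, hr⟩ => by rw [← hr]; simp [H.φ_a]⟩
  have hJP : pre q i ≤ P' := Ideal.span_le.2 (by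
    rintro _ ⟨j, hj, rfl⟩
    exact hle (Ideal.subset_span ⟨j, hj, rfl⟩))
  have hlP : l ∈ P' := show H.φ l ∈ P by rw [H.φ_a]; exact P.zero_mem
  obtain ⟨Q, hQ, hQP⟩ := Ideal.exists_minimalPrimes_le hJP
  have := hQ.1.1
  have hlt : Q < P' := lt_of_le_of_ne hQP fun h => hl i hi Q hQ (h ▸ hlP)
  have h1 : (i : ℕ∞) + 1 ≤ P'.height :=
    (add_le_add (hq i hi Q hQ.1.1 hQ.1.2) le_rfl).trans (Ideal.height_add_one_le_of_lt_of_isPrime hlt)
  let e : (MvPolynomial (Fin (n + 1)) K ⧸ Ideal.span {l}) ≃+* MvPolynomial (Fin n) K :=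
    (Ideal.quotEquivOfEq hker.symm).trans (RingHom.quotientKerEquivOfSurjective H.surj)
  have he : P'.map (Ideal.Quotient.mk (Ideal.span {l})) = P.comap (e : _ →+* _) := by
    refine le_antisymm (Ideal.map_le_iff_le_comap.2 fun p hp => ?_) fun x hx => ?_
    · exact hp
    · obtain ⟨p, rfl⟩ := Ideal.Quotient.mk_surjective x
      exact Ideal.mem_map_of_mem _ hx
  have h2 : P'.height ≤ P.height + 1 := by
    refine (Ideal.height_le_height_add_one_of_mem hlP).trans (le_of_eq ?_)
    rw [he]
    exact congrArg (· + 1) (RingEquiv.height_comap e P)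
  exact (ENat.add_le_add_iff_right (by simp)).1 (h1.trans h2)

lemma tall_castSucc {q : Fin (k + 1) → MvPolynomial (Fin n) K} (hq : Tall q) :
    Tall (q ∘ Fin.castSucc) := by
  intro i hi P hP hle
  refine hq i (by omega) P hP (le_trans (Ideal.span_mono ?_) hle)
  rintro _ ⟨j, hj, rfl⟩
  exact ⟨⟨j, by have : (j : ℕ) < i := hj; omega⟩, hj, rfl⟩

lemma pre_castSucc (q : Fin (k + 1) → MvPolynomial (Fin n) K) {i : ℕ} (hi : i ≤ k) :
    pre (q ∘ Fin.castSucc) i = pre q i := by
  rw [pre, pre]; congr 1
  ext p
  constructor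
  · rintro ⟨j, hj, rfl⟩; exact ⟨j.castSucc, hj, rfl⟩
  · rintro ⟨j, hj, rfl⟩
    exact ⟨⟨j, by have : (j : ℕ) < i := hj; omega⟩, hj, rfl⟩

lemma regular_iff {q : Fin k → MvPolynomial (Fin n) K} :
    Regular q ↔ ∀ i : Fin k, ∀ p, q i * p ∈ pre q i → p ∈ pre q i := Iff.rfl

/-- A common zero of a tall full family is the origin. -/
lemma zero_of_tall {q : Fin n → MvPolynomial (Fin n) K} {a : Fin n → ℕ}
    (hd : ∀ i, (q i).IsHomogeneous (a i))
    (hq : Tall q) (v : Fin n → K) (hv0 : ∀ i, eval v (q i) = 0) : v = 0 := by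
  by_contra hv
  set m := RingHom.ker (killFirst K n n)
  have hmP : m.IsPrime := isPrime_killFirst _ _
  set f : MvPolynomial (Fin n) K →ₐ[K] Polynomial K := aeval fun i => v i • Polynomial.X
  have hLP : (RingHom.ker f).IsPrime := RingHom.ker_isPrime _
  have hle : pre q n ≤ RingHom.ker f := by
    rw [pre_all]
    refine Ideal.span_le.2 ?_
    rintro _ ⟨i, rfl⟩
    rw [SetLike.mem_coe, RingHom.mem_ker, aeval_line (hd i), hv0 i, zero_smul]
  have hfX : ∀ i, f (X i) = v i • Polynomial.X := fun i => by simp [f]
  have hkill : killFirst K n n = (Algebra.ofId K _).comp (aeval fun _ => (0 : K)) :=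
    algHom_ext fun i => by simp [killFirst]
  have hlt : RingHom.ker f < m := by
    refine lt_of_le_of_ne (fun p hp => ?_) fun h => hv (funext fun i => ?_)
    · have h0 := congrArg (Polynomial.aeval (0 : K)) (show f p = 0 from hp)
      rw [← AlgHom.comp_apply, map_zero, show (Polynomial.aeval (0 : K)).comp f
        = aeval fun _ => (0 : K) from algHom_ext fun i => by simp [f]] at h0
      rw [RingHom.mem_ker, hkill, AlgHom.comp_apply, h0, map_zero]
    · have : (X i : MvPolynomial (Fin n) K) ∈ RingHom.ker f := by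
        rw [h]; simp [m, RingHom.mem_ker, killFirst]
      rw [RingHom.mem_ker, hfX, smul_eq_zero] at this
      exact this.resolve_right Polynomial.X_ne_zero
  have hmle : m.height ≤ (n : ℕ∞) := by
    refine (Ideal.height_le_card_of_mem_minimalPrimes_span (Set.finite_range X)
      ⟨⟨hmP, ?_⟩, ?_⟩).trans ?_
    · refine Ideal.span_le.2 ?_
      rintro _ ⟨i, rfl⟩
      simp [m, RingHom.mem_ker, killFirst]
    · rintro P ⟨hP, hPle⟩ - p hp
      have hcong : (Ideal.Quotient.mkₐ K P).comp (killFirst K n n) = Ideal.Quotient.mkₐ K P :=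
        algHom_ext fun i => by
          simp [killFirst, Ideal.Quotient.eq_zero_iff_mem.2 (hPle (Ideal.subset_span ⟨i, rfl⟩))]
      have : Ideal.Quotient.mkₐ K P p = 0 := by
        rw [← hcong, AlgHom.comp_apply, show killFirst K n n p = 0 from hp, map_zero]
      exact Ideal.Quotient.eq_zero_iff_mem.1 this
    · exact_mod_cast show (Set.range (X : Fin n → MvPolynomial (Fin n) K)).ncard ≤ n by
        rw [← Nat.card_coe_set_eq]; exact (Finite.card_range_le _).trans (by simp)
  have h4 := ((add_le_add (hq n le_rfl _ hLP hle) le_rfl).trans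
    (Ideal.height_add_one_le_of_lt_of_isPrime hlt)).trans hmle
  have : n + 1 ≤ n := by exact_mod_cast h4
  omega

/-- Tall full families have finite colength. -/
lemma tall_finiteColength {q : Fin n → MvPolynomial (Fin n) K} {a : Fin n → ℕ}
    (hd : ∀ i, (q i).IsHomogeneous (a i)) (hq : Tall q) : FiniteColength q :=
  finiteColength_of_zero fun v hv => zero_of_tall hd hq v hv

/-- A linear form regular modulo all the prefixes, given regularity of the restriction. -/
lemma linear_regular {q : Fin k → MvPolynomial (Fin (n + 1)) K} {l : MvPolynomial (Fin (n + 1)) K}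
    (hl0 : l ≠ 0) (H : Hyper l) (hres : Regular fun i => H.φ (q i)) :
    ∀ i ≤ k, ∀ p, l * p ∈ pre q i → p ∈ pre q i := by
  intro i hi
  induction i with
  | zero =>
    intro p hp
    simp only [pre, Nat.not_lt_zero, Set.setOf_false, Set.image_empty, Ideal.span_empty,
      Ideal.mem_bot, mul_eq_zero] at hp ⊢
    exact hp.resolve_left hl0
  | succ i ih =>
    intro p hp
    rw [show i + 1 = ((⟨i, by omega⟩ : Fin k) : ℕ) + 1 from rfl, pre_succ] at hp ⊢
    obtain ⟨u, hu, w, hw, he⟩ := Submodule.mem_sup.1 hp
    obtain ⟨y, rfl⟩ := Ideal.mem_span_singleton'.1 hw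
    have hy : H.φ y ∈ pre (fun i => H.φ (q i)) i := by
      refine regular_iff.1 hres ⟨i, by omega⟩ _ ?_
      have h1 : H.φ (q ⟨i, by omega⟩) * H.φ y = -H.φ u := by
        rw [← map_mul, ← map_neg]
        have : q ⟨i, by omega⟩ * y = l * p - u := by rw [← he]; ring
        rw [this, map_sub, map_mul, H.φ_a, zero_mul, zero_sub, map_neg]
      rw [h1]
      refine neg_mem ?_
      have := Ideal.mem_map_of_mem H.φ hu
      rwa [map_pre] at this
    rw [← map_pre] at hy
    obtain ⟨y', hy', hye⟩ := H.mem_res.1 hy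
    obtain ⟨z, hz⟩ := H.ker (y - y') (by rw [map_sub, hye, sub_self])
    have hmem : p - q ⟨i, by omega⟩ * z ∈ pre q i := by
      refine ih (by omega) _ ?_
      have : l * (p - q ⟨i, by omega⟩ * z) = u + y' * q ⟨i, by omega⟩ := by
        rw [mul_sub, ← he, ← mul_assoc, mul_comm l, mul_assoc, ← hz]; ring
      rw [this]
      exact add_mem hu (Ideal.mul_mem_right _ _ hy')
    rw [show p = (p - q ⟨i, by omega⟩ * z) + z * q ⟨i, by omega⟩ by ring]
    exact Submodule.add_mem_sup hmem (Ideal.mem_span_singleton'.2 ⟨z, rfl⟩)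

/-- Forms with tall prefixes form a regular sequence. -/
theorem tall_regular : ∀ n k, ∀ q : Fin k → MvPolynomial (Fin n) K, k ≤ n → ∀ a : Fin k → ℕ,
    (∀ i, 1 ≤ a i) → (∀ i, (q i).IsHomogeneous (a i)) → Tall q → Regular q := by
  intro n
  induction n with
  | zero => intro k q hk _ _ _ _ i; exact absurd i.2 (by omega)
  | succ n ihn =>
    intro k
    induction k with
    | zero => intro q _ _ _ _ _ i; exact i.elim0
    | succ k ihk =>
      intro q hk a ha hd hq
      have hprev := ihk (q ∘ Fin.castSucc) (by omega) (fun i => a i.castSucc) (fun i => ha _)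
        (fun i => hd _) (tall_castSucc hq)
      rw [regular_iff] at hprev ⊢
      refine Fin.lastCases ?_ fun i p hp => ?_
      · intro p hp
        simp only [Fin.val_last] at hp ⊢
        rcases Nat.lt_or_ge k n with hkn | hkn
        · -- below the number of variables: restrict to a hyperplane
          obtain ⟨l, hl, hl0, hlQ⟩ := exists_linear (q := q) (Nat.succ_le_of_lt hkn)
          obtain ⟨H⟩ := exists_hyper hl hl0
          have hres := ihn (k + 1) _ (Nat.succ_le_of_lt hkn) a ha (fun i => H.hφ (hd i)) (tall_res hq hlQ H)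
          have hlreg := linear_regular hl0 H hres k (by omega)
          have hJ := homog_pre hd k
          suffices h : ∀ d, homogeneousComponent d p ∈ pre q k by
            rw [← sum_homogeneousComponent (φ := p)]; exact Ideal.sum_mem _ fun d _ => h d
          intro d
          induction d using Nat.strong_induction_on generalizing p with
          | _ d ihd =>
            set x := homogeneousComponent d p with hx
            have hqx : q (Fin.last k) * x ∈ pre q k := by
              have h := hJ _ hp (a (Fin.last k) + d)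
              rw [mul_comm, component_mul_homog (hd _), if_pos (by omega), Nat.add_sub_cancel_left]
                at h
              rwa [mul_comm]
            have hφ : H.φ x ∈ pre (fun i => H.φ (q i)) k := by
              refine regular_iff.1 hres (Fin.last k) _ ?_
              rw [← map_mul]
              have := Ideal.mem_map_of_mem H.φ hqx
              rwa [map_pre] at this
            rw [← map_pre] at hφ
            obtain ⟨x', hx', hxe⟩ := H.mem_res.1 hφ
            obtain ⟨y, hy⟩ := H.ker (x - x') (by rw [map_sub, hxe, sub_self])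
            have hqy : q (Fin.last k) * y ∈ pre q k := by
              refine hlreg _ ?_
              rw [← mul_assoc, mul_comm l, mul_assoc, ← hy, mul_sub]
              exact sub_mem hqx (Ideal.mul_mem_left _ _ hx')
            rw [show x = homogeneousComponent d (x' + l * y) by
              rw [← hy, add_sub_cancel, hx,
                homogeneousComponent_eq_self (homogeneousComponent_isHomogeneous d p)], map_add]
            refine add_mem (hJ _ hx' d) ?_
            rcases d with _ | d
            · rw [mul_comm, component_mul_homog hl, if_neg (by omega)]; exact Ideal.zero_mem _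
            · rw [component_mul hl]
              exact Ideal.mul_mem_left _ _ (ihd d (Nat.lt_succ_self d) y hqy)
        · -- as many forms as variables
          obtain rfl : k = n := by omega
          obtain ⟨N, hN⟩ := tall_finiteColength hd hq
          obtain ⟨l, hl, hl0, hlQ⟩ := exists_linear (q := q ∘ Fin.castSucc) (le_refl k)
          obtain ⟨H⟩ := exists_hyper hl hl0
          have hres := ihn k _ le_rfl _ (fun i => ha (Fin.castSucc i)) (fun i => H.hφ (hd _))
            (tall_res (tall_castSucc hq) hlQ H)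
          have hlreg := linear_regular hl0 H hres k le_rfl
          rw [show pre (fun i : Fin k => q i.castSucc) k = pre q k from pre_castSucc q le_rfl] at hlreg
          have hlN : l ^ N * p ∈ pre q k := by
            have h1 : l ^ N ∈ pre q (k + 1) := by
              rw [pre_all]; exact hN _ (by simpa using hl.pow N)
            have e := pre_succ q (Fin.last k)
            simp only [Fin.val_last] at e
            rw [e] at h1
            obtain ⟨u, hu, w, hw, he⟩ := Submodule.mem_sup.1 h1
            obtain ⟨z, rfl⟩ := Ideal.mem_span_singleton'.1 hw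
            rw [← he, add_mul, mul_assoc]
            exact add_mem (Ideal.mul_mem_right _ _ hu) (Ideal.mul_mem_left _ _ hp)
          clear hN
          induction N with
          | zero => simpa using hlN
          | succ N ih => exact ih (hlreg _ (by rwa [← mul_assoc, ← pow_succ']))
      · rw [show (i.castSucc : ℕ) = (i : ℕ) from rfl] at hp ⊢
        rw [← pre_castSucc q (by omega)] at hp ⊢
        exact hprev i p hp

/-- Generic combinations of quadrics of finite colength are tall. -/
theorem exists_tall {ι : Type*} {g : ι → MvPolynomial (Fin n) K} (hd : ∀ i, (g i).IsHomogeneous 2)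
    (hfc : FiniteColength g) {J : Ideal (MvPolynomial (Fin n) K)} (hg : ∀ i, g i ∈ J) :
    ∃ q : Fin n → MvPolynomial (Fin n) K, (∀ i, q i ∈ J) ∧ (∀ i, (q i).IsHomogeneous 2) ∧ Tall q := by
  set W := piece J 2
  have h : ∀ t ≤ n, ∃ q : Fin t → MvPolynomial (Fin n) K, (∀ i, q i ∈ W) ∧ Tall q := by
    intro t ht
    induction t with
    | zero =>
      refine ⟨Fin.elim0, fun i => i.elim0, fun i hi P _ _ => ?_⟩
      obtain rfl : i = 0 := by omega
      simp
    | succ t ih =>
      obtain ⟨q, hq, hT⟩ := ih (by omega)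
      obtain ⟨x, hxW, hx⟩ := exists_avoid (fun _ : Fin 1 => pre q t) W fun _ Q hQ => by
        by_contra h
        simp only [not_exists, not_and, not_not] at h
        obtain ⟨N, hN⟩ := hfc
        have hX : ∀ i, (X i : MvPolynomial (Fin n) K) ∈ Q := fun i => hQ.1.1.mem_of_pow_mem N
          ((Ideal.span_le.2 (by rintro _ ⟨j, rfl⟩; exact h _ (mem_piece.2 ⟨hg j, hd j⟩)))
            (hN _ (isHomogeneous_X_pow i N)))
        have h1 := (le_height_of_X hX).trans
          (Ideal.height_le_card_of_mem_minimalPrimes_span (Set.toFinite _) hQ)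
        have h2 : (q '' {j : Fin t | (j : ℕ) < t}).ncard ≤ t := by
          refine (Set.ncard_image_le (Set.toFinite _)).trans ((Set.ncard_le_ncard
            (Set.subset_univ _) (Set.toFinite _)).trans ?_)
          rw [Set.ncard_univ, Nat.card_eq_fintype_card, Fintype.card_fin]
        have := Nat.cast_le.1 h1
        omega
      refine ⟨Fin.snoc q x, Fin.lastCases (by simpa using hxW) fun i => by simpa using hq i,
        fun i hi P hP hle => ?_⟩
      have hJP : pre q (min i t) ≤ P := by
        refine le_trans (Ideal.span_le.2 ?_) hle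
        rintro _ ⟨j, hj, rfl⟩
        exact Ideal.subset_span ⟨j.castSucc, lt_of_lt_of_le
          (show (j : ℕ) < min i t from hj) (min_le_left _ _), by simp⟩
      rcases Nat.lt_or_ge t i with hti | hti
      · obtain rfl : i = t + 1 := by omega
        rw [min_eq_right (by omega)] at hJP
        obtain ⟨Q, hQ, hQP⟩ := Ideal.exists_minimalPrimes_le hJP
        have := hQ.1.1
        have hxP : x ∈ P := hle (Ideal.subset_span ⟨Fin.last t, by simp, by simp⟩)
        have hlt : Q < P := lt_of_le_of_ne hQP fun e => hx 0 Q hQ (e ▸ hxP)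
        push_cast
        exact (add_le_add (hT t le_rfl Q hQ.1.1 hQ.1.2) le_rfl).trans
          (Ideal.height_add_one_le_of_lt_of_isPrime hlt)
      · rw [min_eq_left hti] at hJP
        exact hT i hti P hP hJP
  obtain ⟨q, hq, hT⟩ := h n le_rfl
  exact ⟨q, fun i => (mem_piece.1 (hq i)).1, fun i => (mem_piece.1 (hq i)).2, hT⟩

/-- The socle of a complete intersection is in the degree `∑ (a i - 1)` only. -/
theorem socle : ∀ n, ∀ q : Fin n → MvPolynomial (Fin n) K, ∀ a : Fin n → ℕ, (∀ i, 1 ≤ a i) →
    (∀ i, (q i).IsHomogeneous (a i)) → Tall q → ∀ e, e ≠ ∑ i, (a i - 1) → ∀ x : MvPolynomial (Fin n) K, x.IsHomogeneous e →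
      (∀ i, X i * x ∈ Ideal.span (Set.range q)) → x ∈ Ideal.span (Set.range q) := by
  intro n
  induction n with
  | zero =>
    intro q a _ _ _ e he x hx _
    rw [Fin.sum_univ_zero] at he
    obtain ⟨e, rfl⟩ : ∃ d, e = d + 1 := ⟨e - 1, by omega⟩
    have : x ∈ part K 0 (e + 1) := hx
    rw [piece_zero_vars, Submodule.mem_bot] at this
    rw [this]; exact Ideal.zero_mem _
  | succ n ih =>
    intro q a ha hd hq e he x hx hsoc
    rw [Fin.sum_univ_castSucc] at he
    set q' := q ∘ Fin.castSucc
    have hsplit : Ideal.span (Set.range q) = pre q' n ⊔ Ideal.span {q (Fin.last n)} := by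
      rw [pre_castSucc q le_rfl, ← pre_all]
      exact pre_succ q (Fin.last n)
    have hreg := regular_iff.1 (tall_regular (n + 1) (n + 1) q le_rfl a ha hd hq) (Fin.last n)
    simp only [Fin.val_last, ← pre_castSucc q (le_refl n)] at hreg
    obtain ⟨l, hl, hl0, hlQ⟩ := exists_linear (q := q') (le_refl n)
    obtain ⟨H⟩ := exists_hyper hl hl0
    have hT' := tall_res (tall_castSucc hq) hlQ H
    have hlreg := linear_regular hl0 H (tall_regular n n _ le_rfl _ (fun i => ha (Fin.castSucc i)) (fun i => H.hφ (hd _)) hT') n le_rfl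
    have hJ := homog_pre (q := q') (fun i => hd _) n
    have hlin : ∀ u, u.IsHomogeneous 1 → u * x ∈ Ideal.span (Set.range q) := by
      intro u hu
      obtain ⟨c, rfl⟩ := P200.exists_linear hu
      rw [Finset.sum_mul]
      exact Ideal.sum_mem _ fun i _ => by
        rw [smul_eq_C_mul, mul_assoc]; exact Ideal.mul_mem_left _ _ (hsoc i)
    have hlx : l * x ∈ pre q' n ⊔ Ideal.span {q (Fin.last n)} := hsplit ▸ hlin l hl
    obtain ⟨u, hu, w, hw, hew⟩ := Submodule.mem_sup.1 hlx
    obtain ⟨y, rfl⟩ := Ideal.mem_span_singleton'.1 hw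
    have hlxe : homogeneousComponent (e + 1) (l * x) = l * x := by
      rw [component_mul hl, homogeneousComponent_eq_self hx]
    have hcomp : l * x = homogeneousComponent (e + 1) u +
        homogeneousComponent (e + 1) (y * q (Fin.last n)) := by
      rw [← map_add, hew, hlxe]
    rw [component_mul_homog (hd _)] at hcomp
    rw [hsplit]
    split_ifs at hcomp with h2
    · set y0 := homogeneousComponent (e + 1 - a (Fin.last n)) y
      have hrel : l * x - y0 * q (Fin.last n) ∈ pre q' n := by
        rw [hcomp, add_sub_cancel_right]; exact hJ _ hu _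
      have hysoc : ∀ i, X i * H.φ y0 ∈ Ideal.span (Set.range fun j => H.φ (q' j)) := by
        intro i
        set s := H.sec (X i)
        have hs : s.IsHomogeneous 1 := H.hsec (isHomogeneous_X K i)
        obtain ⟨u', hu', w', hw', he'⟩ := Submodule.mem_sup.1 (hsplit ▸ hlin s hs)
        obtain ⟨z, rfl⟩ := Ideal.mem_span_singleton'.1 hw'
        have hsz : s * y0 - l * z ∈ pre q' n := by
          refine hreg _ ?_
          have : q (Fin.last n) * (s * y0 - l * z) =
              l * u' - s * (l * x - y0 * q (Fin.last n)) := by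
            linear_combination -l * he'
          rw [this]
          exact sub_mem (Ideal.mul_mem_left _ _ hu') (Ideal.mul_mem_left _ _ hrel)
        have := Ideal.mem_map_of_mem H.φ hsz
        rw [pre_all, Ideal.map_span, ← Set.range_comp, map_sub, map_mul, map_mul, H.φ_a, zero_mul,
          sub_zero, H.φ_sec] at this
        exact this
      have hy : H.φ y0 ∈ Ideal.span (Set.range fun j => H.φ (q' j)) :=
        ih _ _ (fun i => ha (Fin.castSucc i)) (fun i => H.hφ (hd _)) hT' (e + 1 - a (Fin.last n))
          (by have := ha (Fin.last n); omega) _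
          (H.hφ (homogeneousComponent_isHomogeneous _ _)) hysoc
      rw [show (fun j => H.φ (q' j)) = H.φ ∘ q' from rfl, Set.range_comp, ← Ideal.map_span] at hy
      obtain ⟨y', hy', hye⟩ := H.mem_res.1 hy
      obtain ⟨z, hz⟩ := H.ker (y0 - y') (by rw [map_sub, hye, sub_self])
      have hmem : x - z * q (Fin.last n) ∈ pre q' n := by
        refine hlreg _ ?_
        have : l * (x - z * q (Fin.last n)) =
            (l * x - y0 * q (Fin.last n)) + y' * q (Fin.last n) := by
          linear_combination q (Fin.last n) * hz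
        rw [this]
        exact add_mem hrel (Ideal.mul_mem_right _ _ (by rw [pre_all]; exact hy'))
      rw [show x = (x - z * q (Fin.last n)) + z * q (Fin.last n) by ring]
      exact Submodule.add_mem_sup hmem (Ideal.mem_span_singleton'.2 ⟨z, rfl⟩)
    · rw [add_zero] at hcomp
      exact Submodule.mem_sup_left (hlreg _ (hcomp ▸ hJ _ hu _))

end Vale.Agent.P200.Quint
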